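import Crest.Agent.N49.Jb.Thr
import Crest.Agent.N49.Rf.Reg

/-!
# Row 49 (helper98): regularisation with output `RgS`
-/

set_option autoImplicit false

noncomputable section

namespace Crest.Agent.N49.Jb

open Tw

/-- **every container has a regular refinement of almost the same density** -/
def REGS : Prop := ∀ s C b j : ℕ, ∃ K, ∀ (N m : ℕ) (L : ℝ) (A : Set ℤ) (α : ℝ), 2 ≤ m →
  Top.Arr (2 * s + 1) K m L (fun v : Ctr × (ℕ → ℕ) => v.2) (fun v : Ctr × (ℕ → ℕ) => v.2)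
    (fun v => v.1.Cs s N v.2 ∧ α ≤ v.1.den A)
    fun _ w => w.1.Cs s N w.2 ∧ w.1.T.K = 1 ∧
      w.1.T.RgS w.1.T.lev s C (Top.Xs s m w.2 ^ b) (1 / 2 ^ Top.Xs s m w.2 ^ b)
        (1 / 2 ^ Top.Xs s m w.2 ^ b) ∧ α - 1 / 2 ^ (m + j) ≤ w.1.den A

theorem regS (hr : Rf.REG Rf.JBc) (ht : THR) : REGS := fun s C b j =>
  let ⟨K, hK⟩ := ht s C b
  let ⟨K', h⟩ := hr s K j
  ⟨K', fun N m L A α m2 => h N m L A α (fun V c => V.T.RgS V.T.lev s C (Top.Xs s m c ^ b)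
    (1 / 2 ^ Top.Xs s m c ^ b) (1 / 2 ^ Top.Xs s m c ^ b)) m2
      fun V c a k _ n => hK N m V c m2 a k n⟩

theorem regS_of (sl : Rf.SL1) (hJ : ∀ M, Sy.JBS M) (hc : ∀ M, ∃ c, CHAR M c) : REGS :=
  regS (Rf.reg_sl sl) (thr hJ hc)

end Crest.Agent.N49.Jb

end
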