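import Crest.Agent.N49.Rm.Fs

/-!
# Row 49 (helper98): a relation with all letters marked is a polynomial identity
-/

set_option autoImplicit false
set_option linter.unusedSectionVars false

open Finset MvPolynomial

noncomputable section

namespace Crest.Agent.N49.Jb

open Rm TT

variable {ι : Type}

/-- the `ℓ¹` norm of the coefficients -/
def nm (P : MvPolynomial ι ℝ) : ℝ := ∑ m ∈ P.support, |coeff m P|

theorem nm_nonneg (P : MvPolynomial ι ℝ) : 0 ≤ nm P := sum_nonneg fun _ _ => abs_nonneg _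

theorem nm_eq {P : MvPolynomial ι ℝ} {s : Finset (ι →₀ ℕ)} (h : P.support ⊆ s) :
    nm P = ∑ m ∈ s, |coeff m P| :=
  sum_subset h fun m _ k => by rw [notMem_support_iff.1 k, abs_zero]

theorem nm_zero : nm (0 : MvPolynomial ι ℝ) = 0 := by simp [nm]

theorem nm_add (P Q : MvPolynomial ι ℝ) : nm (P + Q) ≤ nm P + nm Q := by
  classical
  rw [nm_eq support_add, nm_eq (P := P) (subset_union_left (s₂ := Q.support)),
    nm_eq (P := Q) (subset_union_right (s₁ := P.support)), ← sum_add_distrib]
  exact sum_le_sum fun m _ => by rw [coeff_add]; exact abs_add_le _ _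

theorem nm_sum {κ : Type*} (s : Finset κ) (P : κ → MvPolynomial ι ℝ) :
    nm (∑ i ∈ s, P i) ≤ ∑ i ∈ s, nm (P i) :=
  le_sum_of_subadditive nm nm_zero.le nm_add s P

theorem nm_C (a : ℝ) : nm (C a : MvPolynomial ι ℝ) = |a| := by
  classical
  rw [nm_eq (P := C a) (s := {0}) support_monomial_subset, sum_singleton, coeff_zero_C]

theorem nm_C_mul (a : ℝ) (P : MvPolynomial ι ℝ) : nm (C a * P) = |a| * nm P := by
  rw [nm_eq (s := P.support) fun m k => by
    rw [mem_support_iff] at k ⊢
    exact fun e => k (by rw [coeff_C_mul, e, mul_zero]), nm, mul_sum]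
  exact sum_congr rfl fun m _ => by rw [coeff_C_mul, abs_mul]

theorem nm_X_mul (i : ι) (P : MvPolynomial ι ℝ) : nm (X i * P) = nm P := by
  rw [nm, support_X_mul, sum_map]
  exact sum_congr rfl fun m _ => by rw [addLeftEmbedding_apply, coeff_X_mul]

theorem sq_le_nm (P : MvPolynomial ι ℝ) : ∑ m ∈ P.support, coeff m P ^ 2 ≤ nm P ^ 2 := by
  simp only [← sq_abs (coeff _ P)]
  exact sum_sq_le_sq_sum_of_nonneg fun _ _ => abs_nonneg _

variable {L C : Type} [Fintype L] [DecidableEq L] [Fintype C] [DecidableEq C]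

/-- expansion of a multilinear function after a polynomial substitution -/
theorem expand_poly (ty : C → Finset L) (hne : ∀ c, (ty c).Nonempty) (G : (C → ℝ) → ℝ)
    (hG : ∀ ℓ, ∀ t : C → ℝ, IsLinearMap ℝ fun x : C → ℝ => G fun c => if ℓ ∈ ty c then x c else t c)
    (v : C → MvPolynomial ι ℝ) (Q : ℕ → MvPolynomial ι ℝ → Prop)
    (h0 : ∀ σ : L → Option C, Q 0 (MvPolynomial.C (G (tsv σ))))
    (h1 : ∀ n (b P : C → MvPolynomial ι ℝ), (∀ c, (b c = v c ∨ b c = 0 ∨ b c = 1) ∧ Q n (P c)) →
      Q (n + 1) (∑ c, b c * P c)) (N : Finset L) : ∀ σ : L → Option C, (∀ ℓ ∈ N, σ ℓ = none) →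
      ∃ P, Q #N P ∧ ∀ Y : ι → ℝ,
        G (fun c => if ty c ⊆ N then eval Y (v c) else tsv σ c) = eval Y P := by
  induction N using Finset.induction_on with
  | empty =>
    refine fun σ _ => ⟨_, h0 σ, fun Y => ?_⟩
    rw [eval_C]
    exact congrArg G (funext fun c => if_neg fun e => (hne c).ne_empty (subset_empty.1 e))
  | insert ℓ N hl ih =>
    intro σ h2
    choose P hP hP' using fun c : C => ih
      (fun m => if m = ℓ then some c else (σ m).filter fun c' => decide (ℓ ∉ ty c')) fun m hm => by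
        rw [if_neg fun z : m = ℓ => hl (z ▸ hm), h2 m (mem_insert_of_mem hm)]; rfl
    refine ⟨∑ c, (if ℓ ∈ ty c then if ty c ⊆ insert ℓ N then v c else
      if ∃ m, σ m = some c then 1 else 0 else 0) * P c, ?_, fun Y => ?_⟩
    · rw [card_insert_of_notMem hl]
      exact h1 _ _ _ fun c => ⟨by split_ifs <;> simp, hP c⟩
    obtain ⟨t, ht⟩ : ∃ t : C → ℝ,
      t = fun c => if ty c ⊆ insert ℓ N then eval Y (v c) else tsv σ c := ⟨_, rfl⟩
    have e := LinearMap.pi_apply_eq_sum_univ (IsLinearMap.mk' _ (hG ℓ t)) t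
    simp only [IsLinearMap.mk'_apply, ite_self, smul_eq_mul] at e
    rw [← ht, e, map_sum]
    refine sum_congr rfl fun c _ => ?_
    rw [map_mul]
    by_cases hc : ℓ ∈ ty c
    · rw [if_pos hc, ← hP' c Y]
      refine congrArg₂ (· * ·) ?_ (congrArg G (funext fun c' => ?_))
      · rw [ht]; dsimp only [tsv]; split_ifs <;> simp
      by_cases z : ℓ ∈ ty c'
      · rw [if_pos z, if_neg fun w : ty c' ⊆ N => hl (w z), tsv]
        refine if_congr ⟨fun w => ⟨ℓ, by simp [w]⟩, fun ⟨m, w⟩ => ?_⟩ rfl rfl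
        split_ifs at w
        · exact Option.some.inj w
        · simp [Option.filter_eq_some_iff, z] at w
      · rw [if_neg z, ht]
        refine if_congr (subset_insert_iff_of_notMem z) rfl ?_
        rw [tsv, tsv]
        refine if_congr ⟨fun ⟨m, w⟩ => ⟨m, ?_⟩, fun ⟨m, w⟩ => ⟨m, ?_⟩⟩ rfl rfl
        · rw [if_neg fun x : m = ℓ => by simp [x, h2 ℓ (mem_insert_self _ _)] at w]
          simp [w, z]
        · split_ifs at w
          · exact absurd (Option.some.inj w ▸ hc) z
          · exact (Option.filter_eq_some_iff.1 w).1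
    · have := (hG ℓ t).map_smul 0 0
      simp only [zero_smul, Pi.zero_apply] at this
      rw [show (fun c' => if ℓ ∈ ty c' then (if c = c' then (1 : ℝ) else 0) else t c') =
        fun c' => if ℓ ∈ ty c' then 0 else t c' from funext fun c' => by
          split_ifs with a b
          · exact absurd (b ▸ a) hc
          · rfl
          · rfl, this, if_neg hc, map_zero, zero_mul, mul_zero]

variable {T : TT L C} {F : Fm L C} {y : C → ℤ} {q : ℕ} {B : ℝ}

/-- **a relation with all the letters marked is an identity of polynomials** -/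
theorem rel_poly (h : T.Ok) (hne : ∀ c, (T.ty c).Nonempty) (hF : T.Dat univ univ F)
    (hR : T.Rel univ univ y q B F) (f : C → ι) (n : C → ℤ) (a : C → ℝ) {α : ℝ} (h1 : 1 ≤ α)
    (ha : ∀ c, |a c| ≤ α) : ∃ (I : MvPolynomial ι ℤ) (g : MvPolynomial ι ℝ),
      nm g ≤ (Fintype.card C * α) ^ Fintype.card L * B ∧ ∀ (Y u : ι → ℝ) (p : C ⊕ L → ℝ),
        (∀ ℓ, p (.inr ℓ) = 0) → (∀ c, p (.inl c) = n c * Y (f c)) →
        (∀ c, T.Φ p c = a c * u (f c)) →
        F p = (q : ℝ)⁻¹ * eval Y (map (Int.castRingHom ℝ) I) + eval u g := by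
  obtain ⟨I, ⟨hI, hz⟩, hs⟩ := hR
  have nd : ∀ c, ¬ Disjoint (T.ty c) univ := fun c e =>
    (hne c).ne_empty (disjoint_self_iff_empty _ |>.1 (e.mono_right (subset_univ _)))
  have fib : ∀ p : C ⊕ L → ℝ, (∀ ℓ, p (.inr ℓ) = 0) → p ∈ T.Fib univ y := fun p e =>
    ⟨fun c d => absurd d (nd c), fun ℓ => by simp [e]⟩
  obtain ⟨P, ⟨J, rfl⟩, hP⟩ := expand_poly T.ty hne (fun t => I (Sum.elim t 0)) (fun ℓ t => by
      have key : ∀ (a b : ℝ) (x x' : C → ℝ),
          I (Sum.elim (fun c => if ℓ ∈ T.ty c then (a • x + b • x') c else t c) 0) =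
            a * I (Sum.elim (fun c => if ℓ ∈ T.ty c then x c else t c) 0) +
              b * I (Sum.elim (fun c => if ℓ ∈ T.ty c then x' c else t c) 0) := fun a b x x' => by
        rw [← hI.2 ℓ (mem_univ _) a b _ _ fun v k => by
          cases v with
          | inl c => simp [show ℓ ∉ T.ty c from k]
          | inr m => rfl]
        refine congrArg I (funext fun v => ?_)
        cases v with
        | inl c => by_cases k : ℓ ∈ T.ty c <;> simp [cmb, tv, k]
        | inr m => simp [cmb]
      exact ⟨fun x x' => by simpa using key 1 1 x x', fun a x => by simpa using key a 0 x x⟩)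
    (fun c => MvPolynomial.C (n c : ℝ) * X (f c))
    (fun _ P => P ∈ (map (Int.castRingHom ℝ) : MvPolynomial ι ℤ →+* _).range) (fun σ => by
      obtain ⟨z, e⟩ := hz (Sum.elim (tsv σ) 0) (fib _ fun _ => rfl) fun v => by
        cases v with
        | inl c =>
          rw [Sum.elim_inl, tsv]; split_ifs
          exacts [⟨1, by simp⟩, ⟨0, by simp⟩]
        | inr m => exact ⟨0, by simp⟩
      exact ⟨MvPolynomial.C z, by simp [e]⟩)
    (fun _ b P k => Subring.sum_mem _ fun c _ => Subring.mul_mem _ (by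
      rcases (k c).1 with e | e | e <;> rw [e]
      exacts [⟨MvPolynomial.C (n c) * X (f c), by simp⟩, Subring.zero_mem _, Subring.one_mem _])
      (k c).2) univ (fun _ => none) fun _ _ => rfl
  have hD : T.Dat univ univ fun p => F p - I p / q := hF.sub (hI.div q)
  obtain ⟨g, hg, hg'⟩ := expand_poly T.ty hne
    (fun t => F (h.fp univ y t) - I (h.fp univ y t) / q)
    (fun ℓ t => h.fp_lin y hD (mem_univ ℓ) t) (fun c => MvPolynomial.C (a c) * X (f c))
    (fun k P => nm P ≤ (Fintype.card C * α) ^ k * B) (fun σ => by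
      rw [nm_C, pow_zero, one_mul]
      exact hs _ (h.fp_fib univ y _) (h.fp_cube univ univ y σ)) (fun k b P w => by
      refine (nm_sum _ _).trans ((sum_le_card_nsmul _ _ (α * ((Fintype.card C * α) ^ k * B))
        fun c _ => ?_).trans (by rw [nsmul_eq_mul, card_univ, pow_succ]; linarith))
      have p0 := nm_nonneg (P c)
      have p1 := (w c).2
      rcases (w c).1 with e | e | e <;> rw [e]
      · rw [mul_assoc, nm_C_mul, nm_X_mul]
        exact mul_le_mul (ha c) p1 p0 (by linarith)
      · rw [zero_mul, nm_zero]; nlinarith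
      · rw [one_mul]; nlinarith) univ (fun _ => none) fun _ _ => rfl
  refine ⟨J, g, hg, fun Y u p p0 p1 p2 => ?_⟩
  have e1 := hP Y
  have e2 := hg' u
  simp only [subset_univ, if_true, map_mul, eval_C, eval_X] at e1 e2
  have e3 : p = Sum.elim (fun c => (n c : ℝ) * Y (f c)) 0 := funext fun v => by
    cases v with
    | inl c => exact p1 c
    | inr m => exact p0 m
  have e4 := hD.1 p (h.fp univ y fun c => a c * u (f c)) (h.fib_uniq univ (fib p p0)
    (h.fp_fib univ y _) fun c d _ => by rw [h.fp_phi univ y _ d, p2])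
  dsimp only at e4
  rw [← e1, ← e2, ← e3, ← e4]
  ring

end Crest.Agent.N49.Jb

end
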