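import Crest.Agent.N49.Sy.Jbs
import Crest.Agent.N49.Sy.Sinv
import Crest.Agent.N49.Sy.Sok
import Crest.Agent.N49.Sy.Sun
import Crest.Agent.N49.Sy.Swt
import Crest.Agent.N49.Sy.Ssz
import Crest.Agent.N49.Sy.Sbi
import Crest.Agent.N49.Sy.Start
import Crest.Agent.N49.Sy.End
import Crest.Agent.N49.Rm.All
import Crest.Agent.N49.Rn.Brel
import Crest.Agent.N49.Jb.RegS

/-!
# Row 49 (helper98): the block `biased symbol ⇒ trivial symbol`, without hypotheses
-/

set_option autoImplicit false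

namespace Crest.Agent.N49.Jb

open Tw

theorem sinv : Sy.SINV := Sy.sinv Sy.sok Sy.sun Sy.swt Sy.ssz

theorem jbs (M : ℕ) : Sy.JBS M :=
  Sy.jbs Sy.sok sinv (Sy.sbi Sy.swt) Sy.start (Sy.end_of Sy.sok) (Rm.Al.bb M)

theorem brel (M : ℕ) : BREL M := Tw.brel (jbs M)

theorem thr' (hc : ∀ M, ∃ c, CHAR M c) : THR := thr jbs hc

theorem regS' (sl : Rf.SL1) (hc : ∀ M, ∃ c, CHAR M c) : REGS := regS_of sl jbs hc

end Crest.Agent.N49.Jb
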