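import Crest.Agent.N49.Sy.Defs
import Crest.Agent.N49.Tw.Mast1
import Crest.Agent.N49.Tw.Mono
import Crest.Agent.N49.Top.Sd

/-!
# Row 49 (helper98): thresholds; a tower that is not regular has an event
-/

set_option autoImplicit false

open Finset Matrix

noncomputable section

namespace Crest.Agent.N49.Jb

open Tw Po

/-- **a unit tower that is not regular has an event** -/
def THR : Prop := ∀ s C b : ℕ, ∃ K, ∀ (N m : ℕ) (V : Ctr) (c : ℕ → ℕ), 2 ≤ m → V.Cs s N c →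
  V.T.K = 1 → ¬ V.T.RgS V.T.lev s C (Top.Xs s m c ^ b) (1 / 2 ^ Top.Xs s m c ^ b)
    (1 / 2 ^ Top.Xs s m c ^ b) → Rf.Evd TS.JBc s K m V c

theorem rgs_mono {M t C C' : ℕ} (h : RGS M t C) (e : C ≤ C') : RGS M t C' :=
  fun σ _ T st n a η s n1 h0 h1 r =>
    h σ T st n a η s n1 h0 h1 (r.mono s.tri h0 h1 e le_rfl le_rfl le_rfl)

theorem rgs_max {M c : ℕ} (h : CHAR M c) (s C0 : ℕ) : ∃ C, C0 ≤ C ∧ ∀ t ≤ s, RGS M t C := by
  choose C hC using rgs h
  exact ⟨C0 + ∑ t ∈ range (s + 1), C t, Nat.le_add_right _ _, fun t k => rgs_mono (hC t)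
    ((single_le_sum (fun _ _ => Nat.zero_le _) (mem_range.2 (Nat.lt_succ_of_le k))).trans
      (Nat.le_add_left _ _))⟩

theorem le_pw {N : ℕ} (h : 2 ≤ N) (k : ℕ) : k + 1 ≤ N ^ k :=
  Nat.lt_two_pow_self.trans_le (Nat.pow_le_pow_left h k)

theorem pw_le {N N' a a' : ℕ} (h : 2 ≤ N') (e : N ≤ N') (e' : a ≤ a') : N ^ a ≤ N' ^ a' :=
  (Nat.pow_le_pow_left e a).trans (Nat.pow_le_pow_right (by omega) e')

theorem two_pw {N a : ℕ} (h : 2 ≤ N) : N ^ a + N ^ a ≤ N ^ (a + 1) := by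
  rw [pow_succ]; nlinarith [Nat.zero_le (N ^ a)]

theorem half_le {x y z : ℕ} {P : ℝ} (hP : P ≤ 2 ^ x) (h : x + z ≤ y) :
    P * (1 / 2 ^ y) ≤ 1 / 2 ^ z := by
  rw [mul_one_div, div_le_div_iff₀ (by positivity) (by positivity), one_mul]
  refine (mul_le_mul_of_nonneg_right hP (by positivity)).trans ?_
  rw [← pow_add]
  exact pow_le_pow_right₀ one_le_two h

theorem log_half (x : ℕ) : Real.log (1 / 2 ^ x : ℝ)⁻¹ ≤ x := by
  rw [one_div, inv_inv, Real.log_pow]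
  exact mul_le_of_le_one_right (Nat.cast_nonneg _) (by linarith [Real.log_two_lt_d9])

/-- the exponents of the thresholds -/
def dd (s C h : ℕ) : ℕ := (h + 1) * C + (h + C + 2 + (3 * s + 1))

theorem dd_mono (s C : ℕ) {h h' : ℕ} (e : h ≤ h') : dd s C h ≤ dd s C h' := by
  unfold dd; gcongr

variable {σ : Type} [DecidableEq σ] {T : TS σ} {st : T.C → ℕ}

variable (T st) in
/-- regularity of the stage `t` with the scales `O` and the exponents `h` -/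
def Gl (s C : ℕ) (O h : ℕ → ℕ) (t : ℕ) : Prop :=
  T.SymS st t (fun _ => 1 / 2 ^ O t ^ (h t + C))
    ((O (t - 1) ^ dd s C (h t) : ℕ) / (1 / 2 ^ O t ^ (h t + C)))
    (Real.exp (-(O (t - 1) ^ dd s C (h t) : ℕ)))

theorem rgS_of_gl {s C t : ℕ} {O h : ℕ → ℕ} (ts : t ≤ s) (o2 : ∀ l, 2 ≤ O l) (oa : Antitone O)
    (ha : ∀ l ≤ s, ∀ l' < l, h l < h l') (oR : ∀ j ∈ Icc 1 s, (T.stg st).R j ≤ O j)
    (oc : ∀ j ∈ Icc 1 s, Real.log ((T.stg st).ct j) ≤ O (j - 1))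
    (g : ∀ l ∈ Icc 1 t, Gl T st s C O h l) :
    T.RgS st t C (O t ^ h t) (1 / 2 ^ O t ^ h t) (1 / 2 ^ O t ^ h t) := by
  have hm : ∀ l ≤ s, ∀ l' ≤ l, h l ≤ h l' := fun l a l' b =>
    b.eq_or_lt.elim (fun e => e ▸ le_rfl) fun e => (ha l a l' e).le
  obtain ⟨Y, hY⟩ : ∃ Y, Y = O t ^ h t := ⟨_, rfl⟩
  have P1 : ((Y : ℝ) + 1) ^ C ≤ 2 ^ (Y * C) := by
    rw [pow_mul]
    exact pow_le_pow_left₀ (by positivity) (by exact_mod_cast Nat.lt_two_pow_self) C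
  have y1 : ∀ l ≤ t, Y ≤ O l ^ h l := fun l k => hY ▸ pw_le (o2 l) (oa k) (hm t ts l k)
  have y2 : ∀ l ≤ t, Y * C + Y ≤ O l ^ (h l + C) := fun l k => by
    rw [pow_add, ← Nat.mul_succ]; exact Nat.mul_le_mul (y1 l k) (le_pw (o2 l) C)
  rw [← hY]
  refine TS.rgS_iff.2 ⟨fun l _ => 1 / 2 ^ O l ^ (h l + C), fun l => 1 / 2 ^ O l ^ (h l + C),
    fun l k => ⟨by positivity, (div_le_one (by positivity)).2 (one_le_pow₀ one_le_two),
      fun _ => ⟨le_rfl, half_le P1 (y2 l k)⟩⟩, fun l k l' k' _ _ => half_le P1 ?_, fun l k => ?_⟩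
  · have := y2 l k
    have := ha l (k.trans ts) l' k'
    exact le_trans (by omega) ((two_pw (a := h l + C) (o2 l)).trans
      (pw_le (o2 l') (oa k'.le) (by omega)))
  obtain ⟨l1, lt⟩ := mem_Icc.1 k
  obtain ⟨N, hN⟩ : ∃ N, N = O (l - 1) := ⟨_, rfl⟩
  have N2 : 2 ≤ N := hN ▸ o2 _
  have oN : ∀ j, l - 1 ≤ j → O j ≤ N := fun j e => hN ▸ oa e
  obtain ⟨Z, hZ⟩ : ∃ Z, Z = N ^ (h l + C + 1) := ⟨_, rfl⟩
  have z1 : N ≤ Z := hZ ▸ Nat.le_self_pow (by omega) N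
  have z2 : Y ≤ N ^ h l := (y1 l lt).trans (Nat.pow_le_pow_left (oN l (by omega)) _)
  have z3 : Y ≤ Z := z2.trans (hZ ▸ Nat.pow_le_pow_right (by omega) (by omega))
  have c1 : ∀ j ∈ Icc l t, T.cst st (fun l => 1 / 2 ^ O l ^ (h l + C)) j ≤ 3 * Z := fun j kj => by
    obtain ⟨j1, j2⟩ := mem_Icc.1 kj
    have m : j ∈ Icc 1 s := mem_Icc.2 ⟨by omega, by omega⟩
    have a1 : Real.log ((T.stg st).ct j) ≤ Z :=
      (oc j m).trans (by exact_mod_cast (oN _ (by omega)).trans z1)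
    have a2 : ((T.stg st).R j : ℝ) ≤ N := by exact_mod_cast (oR j m).trans (oN _ (by omega))
    have a3 : Real.log (1 / 2 ^ O j ^ (h j + C) : ℝ)⁻¹ ≤ (N ^ (h l + C) : ℕ) :=
      (log_half _).trans (by
        exact_mod_cast pw_le N2 (oN j (by omega)) (Nat.add_le_add_right (hm j (by omega) l j1) C))
    have a4 : (N : ℝ) * (N ^ (h l + C) : ℕ) = Z := by rw [hZ, pow_succ]; push_cast; ring
    have a5 : (N : ℝ) ≤ Z := by exact_mod_cast z1
    have a6 := mul_le_mul a2 (add_le_add_right a3 1) (add_nonneg zero_le_one (TS.log_inv_nonneg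
      (by positivity) ((div_le_one (by positivity)).2 (one_le_pow₀ one_le_two)))) N.cast_nonneg
    rw [TS.cst]
    linarith
  have c2 : ∑ j ∈ Icc l t, T.cst st (fun l => 1 / 2 ^ O l ^ (h l + C)) j ≤ s * (3 * Z) :=
    (sum_le_card_nsmul _ _ _ c1).trans (by
      rw [nsmul_eq_mul, Nat.card_Icc]
      exact mul_le_mul_of_nonneg_right (by exact_mod_cast (by omega : t + 1 - l ≤ s))
        (by positivity))
  have c3 : ((Y : ℝ) + 1) ^ C * (1 + Real.log (1 / 2 ^ Y : ℝ)⁻¹ +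
      ∑ j ∈ Icc l t, T.cst st (fun l => 1 / 2 ^ O l ^ (h l + C)) j) ≤ (N ^ dd s C (h l) : ℕ) := by
    have b1 : (Y + 1) ^ C ≤ N ^ ((h l + 1) * C) := by
      rw [pow_mul]
      exact Nat.pow_le_pow_left (le_trans (Nat.add_le_add z2 (Nat.one_le_pow _ _ (by omega)))
        (two_pw N2)) C
    have b2 : 1 + Y + s * (3 * Z) ≤ N ^ (h l + C + 2 + (3 * s + 1)) := by
      have := le_pw N2 (3 * s + 1)
      calc _ ≤ Z * (3 * s + 1 + 1) := by nlinarith
        _ ≤ N ^ (h l + C + 2) * N ^ (3 * s + 1) :=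
          Nat.mul_le_mul (hZ ▸ Nat.pow_le_pow_right (by omega) (by omega)) this
        _ = _ := (pow_add _ _ _).symm
    calc _ ≤ ((Y : ℝ) + 1) ^ C * (1 + Y + s * (3 * Z)) :=
          mul_le_mul_of_nonneg_left (by linarith [log_half Y]) (by positivity)
      _ ≤ _ := by
        rw [dd, pow_add N ((h l + 1) * C)]
        exact_mod_cast Nat.mul_le_mul b1 b2
  have g' := g l k
  rw [Gl, ← hN] at g'
  exact g'.mono (div_le_div_of_nonneg_right c3 (by positivity))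
    (Real.exp_le_exp.2 (neg_le_neg c3))

theorem stg_R_lev (T : TS Unit) (l : ℕ) : (T.stg T.lev).R l = T.R l := by
  simp only [TS.R, TS.stg_lev]; rfl

theorem stg_ct_lev (T : TS Unit) (l : ℕ) : (T.stg T.lev).ct l = T.ct l := by
  have key : ∀ f : T.C → ℕ, f = T.lev → th (T.D.submatrix (Subtype.val : {c // f c = l} → T.C)
      (Subtype.val : {c // f c = l} → T.C)) 0 = T.ct l := by rintro _ rfl; rfl
  rw [TS.ct, TS.stg_D_lev]
  exact key _ TS.stg_lev'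

theorem jbc_of {T : TS Unit} {l q : ℕ} {k : T.C → ℤ} {r : ℝ} (h : Sy.JBs T.lev l k q r) :
    T.JBc l k q r := by
  have e : Sy.php T.lev k = T.top.thp k := by
    have := TS.stg_A_lev (T := T.top)
    unfold Sy.php TS.thp
    erw [this]
    rfl
  rw [Sy.JBs, e] at h
  exact h

/-- the exponents, counted from the top -/
def hh (s C K b : ℕ) : ℕ → ℕ
  | 0 => b
  | i + 1 => (dd s C (hh s C K b i) + 1) * (K + 1) + 1

theorem hh_mono (s C K b : ℕ) : StrictMono (hh s C K b) := strictMono_nat_of_lt_succ fun i => by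
  rw [hh, dd]; nlinarith [Nat.zero_le ((hh s C K b i + 1) * C), Nat.zero_le K]

theorem card_le {V : Ctr} {s : ℕ} (h : V.Ok s) : Fintype.card V.T.C ≤ V.Rc s 1 :=
  (card_eq_sum_card_fiberwise (f := V.T.lev) fun c _ => mem_coe.2 (mem_Icc.2
    ⟨Nat.pos_of_ne_zero fun e => h.1.ne c ((Finsupp.degree_eq_zero_iff _).1 e), h.2.1 c⟩)).le

theorem thr (hJ : ∀ M, Sy.JBS M) (hc : ∀ M, ∃ c, CHAR M c) : THR := by
  intro s C0 b
  obtain ⟨K, hK⟩ := hJ s
  obtain ⟨c0, hc⟩ := hc s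
  obtain ⟨C, C1, hC⟩ := rgs_max hc s C0
  refine ⟨hh s C K b (s + 1) + dd s C (hh s C K b s) + 3, fun N m V c m2 hV K1 hn => ?_⟩
  obtain ⟨O, hO⟩ : ∃ O : ℕ → ℕ, O = fun l => Rf.bb s m c (2 * s - l) := ⟨_, rfl⟩
  obtain ⟨h, hh'⟩ : ∃ h : ℕ → ℕ, h = fun l => hh s C K b (s - l) := ⟨_, rfl⟩
  have o2 : ∀ l, 2 ≤ O l := fun l => hO ▸ m2.trans (Top.le_bs _)
  have oa : Antitone O := fun l l' e => hO ▸
    Top.bs_mono le_rfl le_rfl (Nat.sub_le_sub_left e _) fun _ _ => le_rfl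
  have oc : ∀ l i, i < 2 * s - l → c i ≤ O l := fun l i e => hO ▸
    (single_le_sum (fun _ _ => Nat.zero_le _) (mem_range.2 e)).trans (Nat.le_add_left _ _)
  have ha : ∀ l ≤ s, ∀ l' < l, h l < h l' := fun l a l' e => hh' ▸ hh_mono s C K b (by omega)
  have sg : V.T.Stg V.T.lev s := TS.Cl.stg ⟨hV.ok.1, .inr fun _ _ => unit_ext⟩ hV.ok.2.1
  have key := fun t (ts : t ≤ s) => rgS_of_gl (T := V.T) (st := V.T.lev) (C := C) ts o2 oa ha
    (fun j k => by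
      have := mem_Icc.1 k
      rw [stg_R_lev]
      exact (single_le_sum (f := V.T.R) (fun _ _ => Nat.zero_le _)
        (mem_Icc.2 ⟨le_rfl, this.2⟩)).trans ((hV.R j k).trans (oc j _ (by omega))))
    fun j k => by
      have := mem_Icc.1 k
      rw [stg_ct_lev]
      refine (Real.log_le_log (one_pos.trans_le (TS.one_le_ct hV.ok.1 j)) (hV.ct j k)).trans ?_
      have e := log_half (c (2 * s - j))
      rw [one_div, inv_inv] at e
      exact e.trans (by exact_mod_cast oc (j - 1) _ (by omega))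
  have h1 : ∀ x : ℕ, (1 / 2 ^ x : ℝ) ≤ 1 := fun x =>
    (div_le_one (by positivity)).2 (one_le_pow₀ one_le_two)
  have h2 : ∀ {x y : ℕ}, x ≤ y → (1 / 2 ^ y : ℝ) ≤ 1 / 2 ^ x := fun e =>
    one_div_le_one_div_of_le (by positivity) (pow_le_pow_right₀ one_le_two e)
  have ex : ∃ l, l ∈ Icc 1 s ∧ ¬ Gl V.T V.T.lev s C O h l := by
    by_contra e
    push Not at e
    have x1 : Top.Xs s m c ^ b ≤ O s ^ h s := by
      rw [hh']; dsimp only; rw [Nat.sub_self]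
      exact Nat.pow_le_pow_left (hO ▸ Nat.le_add_right _ _) b
    exact hn ((key s le_rfl e).mono sg.tri (by positivity) (h1 _) C1 x1 (h2 x1) (h2 x1))
  classical
  obtain ⟨l, ⟨hl, bad⟩, low⟩ : ∃ l, (l ∈ Icc 1 s ∧ ¬ Gl V.T V.T.lev s C O h l) ∧
      ∀ l' < l, ¬ (l' ∈ Icc 1 s ∧ ¬ Gl V.T V.T.lev s C O h l') :=
    ⟨_, Nat.find_spec ex, fun _ => Nat.find_min ex⟩
  obtain ⟨l1, ls⟩ := mem_Icc.1 hl
  have r := key (l - 1) (by omega) fun j k => by
    have := mem_Icc.1 k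
    exact not_not.1 fun e => low j (by omega) ⟨mem_Icc.2 ⟨this.1, by omega⟩, e⟩
  have sm := hC (l - 1) (by omega) Unit V.T V.T.lev _ _ _ sg
    (Nat.one_le_pow _ _ (by linarith [o2 (l - 1)])) (by positivity) (h1 _) r
  rw [Nat.sub_add_cancel l1] at sm
  simp only [Gl, TS.SymS, not_forall, not_le] at bad
  obtain ⟨l0, col, k, k0, k1, k2, k3⟩ := bad
  obtain rfl : l0 = l := by
    obtain ⟨F, hF⟩ := Function.ne_iff.1 k0
    rw [← (k1 F hF).1, TS.lev, (k1 F hF).2, map_sum]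
    simp
  obtain ⟨d, hd⟩ : ∃ d, d = dd s C (h l0) := ⟨_, rfl⟩
  obtain ⟨Y, hY⟩ : ∃ Y, Y = O (l0 - 1) := ⟨_, rfl⟩
  have Y2 : 2 ≤ Y := hY ▸ o2 _
  have OY : O l0 ≤ Y := hY ▸ oa (Nat.sub_le _ _)
  have d1 : h l0 + C ≤ d := by rw [hd, dd]; omega
  have e1 : h (l0 - 1) = (d + 1) * (K + 1) + 1 := by
    rw [hd, hh']; dsimp only; rw [show s - (l0 - 1) = s - l0 + 1 by omega, hh]
  have e2 : h (l0 - 1) ≤ hh s C K b (s + 1) := hh' ▸ (hh_mono s C K b).monotone (by omega)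
  have e3 : d ≤ dd s C (hh s C K b s) :=
    hd ▸ dd_mono s C (hh' ▸ (hh_mono s C K b).monotone (Nat.sub_le _ _))
  rw [← hd, ← hY] at k2 k3
  rw [← hY, e1] at sm
  have n1 : O l0 ^ (h l0 + C) ≤ Y ^ (d + 1) := pw_le Y2 OY (by omega)
  have n2 : (Y ^ (d + 1)) ^ K ≤ Y ^ ((d + 1) * (K + 1)) := by
    rw [← pow_mul]; exact Nat.pow_le_pow_right (by omega) (Nat.mul_le_mul_left _ K.le_succ)
  have n3 : Y ^ (d + 1) ≤ Y ^ ((d + 1) * (K + 1)) :=
    Nat.pow_le_pow_right (by omega) (Nat.le_mul_of_pos_right _ K.succ_pos)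
  have n4 := two_pw (a := (d + 1) * (K + 1)) Y2
  have n5 : Y ≤ Y ^ (d + 1) := Nat.le_self_pow (by omega) Y
  obtain ⟨q, q1, q2, hq⟩ := hK V.T V.T.lev l0 l0 (Y ^ (d + 1)) (fun _ => 1 / 2 ^ O l0 ^ (h l0 + C))
    (1 / 2 ^ O l0 ^ (h l0 + C)) k sg K1 (by omega) l1 ls
    (((card_le hV.ok).trans ((hV.R 1 (mem_Icc.2 ⟨le_rfl, by omega⟩)).trans
      ((oc l0 _ (by omega)).trans (OY.trans n5)))).trans Nat.lt_two_pow_self.le)
    (by rw [_root_.one_div_pow]; exact h2 n1) (fun _ => le_rfl) (fun F e => ⟨(k1 F e).1, (k1 F e).1⟩)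
    (sm.mono (by omega) (by rw [div_div, ← pow_add]; exact h2 (by omega)) (h2 (by omega))) (by
      refine le_trans ?_ k3.le
      refine le_trans (pow_le_pow_of_le_one (by norm_num) (by norm_num) (two_pw (a := d) Y2)) ?_
      rw [← two_mul, pow_mul, ← mul_neg_one, Real.exp_nat_mul]
      refine pow_le_pow_left₀ (by norm_num) ?_ _
      rw [Real.exp_neg, le_inv_comm₀ (by norm_num) (Real.exp_pos 1)]
      linarith [Real.exp_one_lt_d9])
  have n6 : (Y ^ (d + 1)) ^ K ≤ Rf.bb s m c (2 * s - l0 + 1) ^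
      (hh s C K b (s + 1) + dd s C (hh s C K b s) + 3) := by
    rw [show Rf.bb s m c (2 * s - l0 + 1) = Y by
      rw [hY, hO]; dsimp only; rw [show 2 * s - (l0 - 1) = 2 * s - l0 + 1 by omega]]
    exact n2.trans (Nat.pow_le_pow_right (by omega) (by omega))
  refine ⟨l0, hl, k, k0, fun F e => (k1 F e).1, ?_, fun _ => ⟨q, _, q1,
    q2.trans (Nat.pow_le_pow_right two_pos n6), by positivity,
    pow_le_pow_right₀ one_le_two n6, jbc_of hq⟩⟩
  rw [TS.stg_D_lev] at k2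
  refine k2.trans ?_
  have O2 := o2 l0
  have y1 : Y ≤ 2 ^ (O l0 + 1) := by
    have a1 : Y = O l0 + c (2 * s - l0) := by
      rw [hY, hO]; dsimp only
      rw [show 2 * s - (l0 - 1) = 2 * s - l0 + 1 by omega, Rf.bb, Top.bs, sum_range_succ,
        ← add_assoc]; rfl
    have a2 : c (2 * s - l0) ≤ 2 ^ O l0 :=
      ((Top.le_tot (n := 2 * s + 1) (by omega)).trans (Nat.lt_pow_succ_log_self one_lt_two _).le).trans
        (Nat.pow_le_pow_right two_pos (by rw [hO]; dsimp only [Rf.bb, Top.bs]; omega))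
    have a3 : O l0 < 2 ^ O l0 := Nat.lt_two_pow_self
    omega
  have y2 : (O l0 + 1) * d + O l0 ^ (h l0 + C) ≤ O l0 ^ (d + 3) := by
    have a1 := le_pw O2 d
    have a2 : (O l0 + 1) * d ≤ O l0 ^ (d + 2) := by
      rw [pow_add, mul_comm]; exact Nat.mul_le_mul (by omega) (by nlinarith)
    have a3 : O l0 ^ (h l0 + C) ≤ O l0 ^ (d + 2) := Nat.pow_le_pow_right (by omega) (by omega)
    exact le_trans (Nat.add_le_add a2 a3) (two_pw O2)
  have y3 : Y ^ d * 2 ^ O l0 ^ (h l0 + C) ≤ 2 ^ O l0 ^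
      (hh s C K b (s + 1) + dd s C (hh s C K b s) + 3) := by
    refine (Nat.mul_le_mul_right _ (Nat.pow_le_pow_left y1 d)).trans ?_
    rw [← pow_mul, ← pow_add]
    exact Nat.pow_le_pow_right two_pos (y2.trans (Nat.pow_le_pow_right (by omega) (by omega)))
  rw [div_div_eq_mul_div, div_one, show Rf.bb s m c (2 * s - l0) = O l0 by rw [hO]]
  exact_mod_cast y3

end Crest.Agent.N49.Jb

end
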